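import Vale.Agent.P139.H25.Abs

/-!
Eigenvectors of the perturbed semigroup and the pointwise equation, eigenmodes, dissipativity.
-/

set_option linter.unusedSectionVars false

open Set Filter Topology MeasureTheory

namespace Vale.Agent.P139.H25

variable {X : Type*} [NormedAddCommGroup X] [NormedSpace ℂ X] [CompleteSpace X]
  {F : Type*} [NormedAddCommGroup F] [NormedSpace ℂ F]

namespace IsPert

variable {S0 S : ℝ → X →L[ℂ] X} {B : X →L[ℂ] X}

/-- If `S t x = exp (lam t) x` modulo a finite-dimensional space `E0`, then `x` solves the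
eigenvalue equation modulo `E0` in every point. The functionals `ev y` are the evaluations, and
`A0 y` is the value in `y` of the generator of `S0` applied to `x`. -/
theorem pointwise_of_eigen (h : IsPert S0 S B) {Y : Type*} (ev : Y → X →L[ℂ] F)
    {x : X} {A0 : Y → F}
    (hA0 : ∀ y, HasDerivWithinAt (fun t => ev y (S0 t x)) (A0 y) (Ici 0) 0)
    (E0 : Submodule ℂ X) [FiniteDimensional ℂ E0] (lam : ℂ)
    (hx : ∀ t : ℝ, 0 ≤ t → S t x - Complex.exp (lam * t) • x ∈ E0) :
    ∃ e ∈ E0, ∀ y, A0 y + ev y (B x) - lam • ev y x = ev y e := by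
  classical
  let Φ : X →ₗ[ℂ] (Y → F) :=
    { toFun := fun e y => ev y e
      map_add' := fun a b => by ext y; simp
      map_smul' := fun c a => by ext y; simp }
  let R : Submodule ℂ (Y → F) := E0.map Φ
  have hfin : FiniteDimensional ℂ R := inferInstance
  have hclosed : IsClosed (R : Set (Y → F)) := R.closed_of_finiteDimensional
  let u : ℕ → ℝ := fun n => 1 / ((n : ℝ) + 1)
  have hu0 : ∀ n, 0 < u n := fun n => by positivity
  have hu : Tendsto u atTop (𝓝[>] 0) := by
    rw [tendsto_nhdsWithin_iff]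
    exact ⟨tendsto_one_div_add_atTop_nhds_zero_nat, Eventually.of_forall hu0⟩
  let q : ℕ → (Y → F) := fun n =>
    Φ (((u n)⁻¹ : ℂ) • (S (u n) x - Complex.exp (lam * u n) • x))
  have hq : ∀ n, q n ∈ (R : Set (Y → F)) := fun n =>
    Submodule.mem_map_of_mem (E0.smul_mem _ (hx _ (hu0 n).le))
  have hlim : Tendsto q atTop (𝓝 fun y => A0 y + ev y (B x) - lam • ev y x) := by
    rw [tendsto_pi_nhds]
    intro y
    have h1 := h.hasDeriv (ev y) (hA0 y)
    have h2 : HasDerivWithinAt (fun t : ℝ => Complex.exp (lam * t) • ev y x)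
        (lam • ev y x) (Ici 0) 0 := by
      have h3 : HasDerivAt (fun t : ℝ => Complex.exp (lam * t)) lam 0 := by
        have h4 : HasDerivAt (fun t : ℝ => lam * (t : ℂ)) lam 0 := by
          simpa using (Complex.ofRealCLM.hasDerivAt (x := (0 : ℝ))).const_mul lam
        simpa using h4.cexp
      exact (h3.smul_const (ev y x)).hasDerivWithinAt
    have h3 := h1.sub h2
    have h4 := (hasDerivWithinAt_iff_tendsto_slope' (by simp)).mp (h3.mono Ioi_subset_Ici_self)
    have h5 := h4.comp hu
    refine h5.congr fun n => ?_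
    have h0 : S 0 x = x := by rw [h.zero]; rfl
    simp only [Function.comp_apply, slope, vsub_eq_sub, sub_zero, Pi.sub_apply, q, Φ,
      LinearMap.coe_mk, AddHom.coe_mk, map_smul, map_sub, h0]
    simp only [Complex.ofReal_zero, mul_zero, Complex.exp_zero, one_smul, sub_self, sub_zero]
    rw [← Complex.ofReal_inv, Complex.coe_smul]
    rfl
  have hmem : (fun y => A0 y + ev y (B x) - lam • ev y x) ∈ (R : Set (Y → F)) :=
    hclosed.mem_of_tendsto hlim (Eventually.of_forall hq)
  obtain ⟨e, he, he'⟩ := hmem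
  exact ⟨e, he, fun y => (congrFun he' y).symm⟩

/-- A vector `φ` with generator equation `A φ + B φ = lam φ`, the first term in the integrated
form, is an eigenvector of the perturbed semigroup. -/
theorem mode (h : IsPert S0 S B) {φ : X} {lam : ℂ}
    (hφ : ∀ t : ℝ, 0 ≤ t → S0 t φ = φ + ∫ τ in (0 : ℝ)..t, S0 τ (lam • φ - B φ)) :
    ∀ t : ℝ, 0 ≤ t → S t φ = Complex.exp (lam * t) • φ := by
  set g := lam • φ - B φ with hg
  have hcont : ContinuousOn (fun s => S0 s g) (Ici 0) := h.cont0 g
  have hder : ∀ s : ℝ, 0 < s → HasDerivAt (fun s => S0 s φ) (S0 s g) s := by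
    intro s hs
    have hi : IntervalIntegrable (fun τ => S0 τ g) volume 0 s := by
      apply ContinuousOn.intervalIntegrable
      rw [uIcc_of_le hs.le]
      exact hcont.mono Icc_subset_Ici_self
    have hca : ContinuousAt (fun τ => S0 τ g) s := hcont.continuousAt (Ici_mem_nhds hs)
    have h1 : HasDerivAt (fun s => φ + ∫ τ in (0 : ℝ)..s, S0 τ g) (S0 s g) s := by
      refine (intervalIntegral.integral_hasDerivAt_right hi ?_ hca).const_add φ
      exact ⟨Ioi 0, Ioi_mem_nhds hs, ((hcont.mono Ioi_subset_Ici_self).aestronglyMeasurable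
        measurableSet_Ioi)⟩
    refine h1.congr_of_eventuallyEq ?_
    filter_upwards [Ioi_mem_nhds hs] with r hr
    exact hφ r (le_of_lt hr)
  have hsol : ∀ t : ℝ, 0 ≤ t → Complex.exp (lam * t) • φ =
      S0 t φ + ∫ τ in (0 : ℝ)..t, S0 (t - τ) (B (Complex.exp (lam * τ) • φ)) := by
    intro t ht
    set v : ℝ → X := fun τ => Complex.exp (lam * τ) • S0 (t - τ) φ with hv
    have hvc : ContinuousOn v (Icc 0 t) := by
      apply ContinuousOn.smul
      · exact Continuous.continuousOn (by fun_prop)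
      · exact continuousOn_comp h.cont0 (continuousOn_const.sub continuousOn_id)
          continuousOn_const (fun τ hτ => sub_nonneg.mpr hτ.2)
    have hvd : ∀ τ ∈ Ioo (0 : ℝ) t, HasDerivAt v
        (S0 (t - τ) (B (Complex.exp (lam * τ) • φ))) τ := by
      intro τ hτ
      have h1 : HasDerivAt (fun τ : ℝ => Complex.exp (lam * τ)) (Complex.exp (lam * τ) * lam) τ := by
        have h4 : HasDerivAt (fun t : ℝ => lam * (t : ℂ)) lam τ := by
          simpa using (Complex.ofRealCLM.hasDerivAt (x := τ)).const_mul lam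
        exact h4.cexp
      have h2 : HasDerivAt (fun τ : ℝ => S0 (t - τ) φ) (-(S0 (t - τ) g)) τ := by
        have h3 := (hder (t - τ) (sub_pos.mpr hτ.2)).scomp τ
          ((hasDerivAt_id τ).const_sub t)
        rw [neg_one_smul] at h3
        exact h3
      have h3 : HasDerivAt v _ τ := h1.smul h2
      convert h3 using 1
      rw [hg, map_sub, map_smul, map_smul, map_smul]
      simp only [smul_neg, smul_sub, smul_smul]
      abel
    have hint : IntervalIntegrable
        (fun τ => S0 (t - τ) (B (Complex.exp (lam * τ) • φ))) volume 0 t :=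
      h.intervalIntegrable (u := fun τ => Complex.exp (lam * τ) • φ) ht
        (Continuous.continuousOn (by fun_prop))
    have h5 := intervalIntegral.integral_eq_sub_of_hasDerivAt_of_le ht hvc hvd hint
    rw [h5, hv]
    simp [h.zero0]
  intro t ht
  exact (h.unique (u := fun t => Complex.exp (lam * t) • φ)
    (Continuous.continuousOn (by fun_prop)) hsol t ht).symm

/-- Dissipativity gives exponential decay. -/
theorem norm_le_exp (h : IsPert S0 S B) (hadd : ∀ s t, 0 ≤ s → 0 ≤ t → S (s + t) = S s * S t)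
    {γ : ℝ} (hdiss : ∀ y : X, ∀ ε : ℝ, 0 < ε → ∀ᶠ r in 𝓝[>] (0 : ℝ),
      ‖S0 r y + r • B y‖ ≤ (1 - γ * r) * ‖y‖ + ε * r) :
    ∀ t : ℝ, 0 ≤ t → ‖S t‖ ≤ Real.exp (-γ * t) := by
  intro t ht
  refine ContinuousLinearMap.opNorm_le_bound _ (Real.exp_pos _).le fun x => ?_
  have hc : ContinuousOn (fun t => ‖S t x‖) (Icc 0 t) :=
    ((h.cont x).mono Icc_subset_Ici_self).norm
  have key : ∀ s ∈ Ico (0 : ℝ) t, ∀ r, -γ * ‖S s x‖ < r →
      ∃ᶠ z in 𝓝[>] s, (z - s)⁻¹ * (‖S z x‖ - ‖S s x‖) < r := by
    intro s hs r hr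
    apply Eventually.frequently
    set y := S s x with hy
    set ε := (r - (-γ * ‖y‖)) / 3 with hε
    have hε0 : 0 < ε := by rw [hε]; linarith
    have h1 := hdiss y ε hε0
    have h2 : ∀ᶠ ρ in 𝓝[>] (0 : ℝ), ‖(∫ τ in (0 : ℝ)..ρ, S0 (ρ - τ) (B (S τ y))) - ρ • B y‖
        ≤ ε * ρ := by
      have h3 := (hasDerivWithinAt_iff_isLittleO.mp (h.hasDeriv_duhamel y))
      rw [Asymptotics.isLittleO_iff] at h3
      have h4 := h3 hε0
      have h5 := h4.filter_mono (nhdsWithin_mono (0 : ℝ) Ioi_subset_Ici_self)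
      filter_upwards [h5, self_mem_nhdsWithin] with ρ h6 h7
      simp only [sub_zero, intervalIntegral.integral_same] at h6
      rwa [Real.norm_of_nonneg (le_of_lt h7)] at h6
    have hmap : Tendsto (fun z => z - s) (𝓝[>] s) (𝓝[>] (0 : ℝ)) := by
      rw [tendsto_nhdsWithin_iff]
      constructor
      · have : Tendsto (fun z => z - s) (𝓝 s) (𝓝 (s - s)) := tendsto_id.sub_const s
        rw [sub_self] at this
        exact this.mono_left nhdsWithin_le_nhds
      · filter_upwards [self_mem_nhdsWithin] with z hz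
        exact sub_pos.mpr (mem_Ioi.mp hz)
    filter_upwards [hmap.eventually h1, hmap.eventually h2, self_mem_nhdsWithin] with z h3 h4 h5
    have hz : 0 < z - s := sub_pos.mpr h5
    have e1 : S z x = S (z - s) y := by
      have h6 := congrArg (fun T : X →L[ℂ] X => T x) (hadd (z - s) s hz.le hs.1)
      rw [sub_add_cancel] at h6
      exact h6
    have e2 : ‖S z x‖ ≤ (1 - γ * (z - s)) * ‖y‖ + ε * (z - s) + ε * (z - s) := by
      rw [e1, h.duhamel _ hz.le y]
      calc _ = ‖(S0 (z - s) y + (z - s) • B y) +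
            ((∫ τ in (0 : ℝ)..(z - s), S0 (z - s - τ) (B (S τ y))) - (z - s) • B y)‖ := by
              congr 1; abel
        _ ≤ _ := (norm_add_le _ _).trans (add_le_add h3 h4)
    rw [inv_mul_lt_iff₀ hz]
    have e3 : r = -γ * ‖y‖ + 3 * ε := by rw [hε]; ring
    rw [e3]
    nlinarith [mul_pos hε0 hz]
  have := le_gronwallBound_of_liminf_deriv_right_le hc key (δ := ‖x‖) (K := -γ) (ε := 0)
    (by
      have h0 : S 0 x = x := by rw [h.zero]; rfl
      simp [h0]) (by intro s _; simp) t ⟨ht, le_rfl⟩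
  rw [gronwallBound_ε0, sub_zero] at this
  linarith

end IsPert

end Vale.Agent.P139.H25
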