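import Vale.Agent.P139.BU.WX2

/-!
# P139 : the free flow at the level of densities, weak form of the generator
-/

open MeasureTheory Real FourierTransform Filter Topology
open scoped ComplexConjugate ContDiff ENNReal InnerProductSpace

namespace Vale.Agent.P139.H25

open Vale.Agent.P139.BU

variable {d s : ℕ} {κ : ℝ}

/-- free flow on densities -/
noncomputable def flowD (c : ℂ) (σ t : ℝ) (φ : E d → ℂ) (ξ : E d) : ℂ :=
  Complex.exp (c * t) * (Real.exp (d * t / 2) : ℂ) *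
    Complex.exp (-(Complex.I * σ * (4 * π ^ 2 * ‖ξ‖ ^ 2 : ℝ) * (Real.exp t - 1 : ℝ))) *
      φ (Real.exp (t / 2) • ξ)

/-- the phase -/
noncomputable def ph (c : ℂ) (σ t : ℝ) (η : E d) : ℂ :=
  Complex.exp (c * t - Complex.I * σ * (4 * π ^ 2 * ‖η‖ ^ 2 : ℝ) * (1 - Real.exp (-t) : ℝ))

lemma norm_ph (c : ℂ) (σ t : ℝ) (η : E d) : ‖ph c σ t η‖ = Real.exp (c.re * t) := by
  have : c * t - Complex.I * σ * (4 * π ^ 2 * ‖η‖ ^ 2 : ℝ) * (1 - Real.exp (-t) : ℝ) =
      c * t - Complex.I * ((σ * (4 * π ^ 2 * ‖η‖ ^ 2) * (1 - Real.exp (-t)) : ℝ) : ℂ) := by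
    push_cast; ring
  rw [ph, this, Complex.norm_exp, Complex.sub_re, Complex.re_mul_ofReal, Complex.re_mul_ofReal]
  simp

lemma continuous_ph (c : ℂ) (σ t : ℝ) : Continuous (ph (d := d) c σ t) := by
  unfold ph; fun_prop

/-- testing the flow against a function -/
theorem integral_flowD (c : ℂ) (σ t : ℝ) (φ g : E d → ℂ) :
    ∫ ξ, flowD c σ t φ ξ * g ξ = ∫ η, φ η * (ph c σ t η * g (Real.exp (-(t / 2)) • η)) := by
  have h := Measure.integral_comp_smul_of_nonneg (volume : Measure (E d))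
    (fun η => φ η * (ph c σ t η * g (Real.exp (-(t / 2)) • η))) (Real.exp (t / 2))
    (hR := (Real.exp_pos _).le)
  have h1 : ∫ ξ, flowD c σ t φ ξ * g ξ = ∫ ξ, (Real.exp (d * t / 2) : ℂ) *
      (φ (Real.exp (t / 2) • ξ) * (ph c σ t (Real.exp (t / 2) • ξ) *
        g (Real.exp (-(t / 2)) • Real.exp (t / 2) • ξ))) := by
    apply integral_congr_ae
    filter_upwards with ξ
    have e1 : Real.exp (-(t / 2)) • Real.exp (t / 2) • ξ = ξ := by
      rw [smul_smul, ← Real.exp_add]; simp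
    rw [e1, flowD, ph, norm_smul, Real.norm_of_nonneg (Real.exp_pos _).le]
    have e2 : Complex.exp (c * t - Complex.I * σ *
        (4 * π ^ 2 * (Real.exp (t / 2) * ‖ξ‖) ^ 2 : ℝ) * (1 - Real.exp (-t) : ℝ)) =
        Complex.exp (c * t) * Complex.exp (-(Complex.I * σ *
          (4 * π ^ 2 * ‖ξ‖ ^ 2 : ℝ) * (Real.exp t - 1 : ℝ))) := by
      rw [← Complex.exp_add]
      congr 1
      have e3 : (4 * π ^ 2 * (Real.exp (t / 2) * ‖ξ‖) ^ 2 : ℝ) * (1 - Real.exp (-t) : ℝ) =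
          (4 * π ^ 2 * ‖ξ‖ ^ 2 : ℝ) * (Real.exp t - 1 : ℝ) := by
        have e4 : Real.exp (t / 2) ^ 2 = Real.exp t := by
          rw [← Real.exp_nat_mul]; congr 1; push_cast; ring
        have e5 : Real.exp t * Real.exp (-t) = 1 := by rw [← Real.exp_add]; simp
        rw [mul_pow, e4]
        linear_combination (-(4 * π ^ 2 * ‖ξ‖ ^ 2)) * e5
      have e6 := congrArg (fun x : ℝ => (x : ℂ)) e3
      simp only [Complex.ofReal_mul] at e6
      rw [sub_eq_add_neg, mul_assoc, mul_assoc (Complex.I * (σ : ℂ))]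
      congr 3
      simpa only [Complex.ofReal_mul] using e6
    rw [e2]
    ring
  rw [h1, integral_const_mul, h, Complex.real_smul, ← mul_assoc]
  have e7 : (Real.exp (d * t / 2) : ℂ) *
      ((Real.exp (t / 2) ^ Module.finrank ℝ (E d))⁻¹ : ℝ) = 1 := by
    rw [finrank_euclideanSpace, Fintype.card_fin, ← Real.exp_nat_mul, ← Real.exp_neg,
      ← Complex.ofReal_mul, ← Real.exp_add]
    have : (d : ℝ) * t / 2 + -(d * (t / 2)) = 0 := by ring
    rw [this]; simp
  rw [e7, one_mul]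

/-- the formal adjoint of the generator, on densities -/
noncomputable def Lst (c : ℂ) (σ : ℝ) (G : E d → ℂ) (η : E d) : ℂ :=
  (c - Complex.I * σ * (4 * π ^ 2 * ‖η‖ ^ 2 : ℝ)) * G η - (1 / 2) * fderiv ℝ G η η

end Vale.Agent.P139.H25
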