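import Vale.Agent.P139.H25.Pair
import Vale.Agent.P139.H25.Abs2
import Vale.Agent.P139.H42.Lin2
import Vale.Agent.P139.H730.Quot

/-!
# P139 : bridge between the semigroup on pairs of densities and the linearised equation
-/

open MeasureTheory Real FourierTransform Filter Topology Set
open scoped ComplexConjugate ContDiff ENNReal InnerProductSpace

namespace Vale.Agent.P139.H25

open Vale.Agent.P139.BU Vale.Agent.P139.WA
open Vale.Agent.P139.H730 (InModes cf cg quotient_form)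

variable {d s m : ℕ} {κ w : ℝ}

/-! ### Definitions -/

/-- the complex exponent of the free flow -/
noncomputable abbrev cE (m : ℕ) (w : ℝ) : ℂ := -(aa m) + Complex.I * w

lemma conj_cE (m : ℕ) (w : ℝ) : conj (cE m w) = -(aa m) - Complex.I * w := by
  simp [cE, Complex.conj_ofReal]
  ring

lemma ev_BX_fst (hκ : 0 ≤ κ) (V1 V2 : XK d s κ) (x : XK d s κ × XK d s κ) (y : E d) :
    ev (H42.BX hκ m V1 V2 x).1 y = -(Complex.I * (((m : ℂ) + 1) * ev V1 y * ev x.1 y +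
      (m : ℂ) * ev V2 y * ev x.2 y)) := by
  simp only [H42.BX_apply]
  rw [ev_add hκ, ev_smul hκ, ev_smul hκ, ev_mulX, ev_mulX]
  ring

lemma ev_BX_snd (hκ : 0 ≤ κ) (V1 V2 : XK d s κ) (x : XK d s κ × XK d s κ) (y : E d) :
    ev (H42.BX hκ m V1 V2 x).2 y = Complex.I * (((m : ℂ) + 1) * ev V1 y * ev x.2 y +
      (m : ℂ) * conj (ev V2 y) * ev x.1 y) := by
  simp only [H42.BX_apply]
  rw [ev_add hκ, ev_smul hκ, ev_smul hκ, ev_mulX, ev_mulX, ev_starX]
  ring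

/-- `H42.IsPert` gives the hypotheses of the abstract bridge -/
lemma toIsPert {X : Type*} [NormedAddCommGroup X] [NormedSpace ℂ X]
    {S0 S : ℝ → X →L[ℂ] X} {B : X →L[ℂ] X} (h : H42.IsPert S0 B S) : IsPert S0 S B where
  cont0 := h.sg₀.cont
  cont := h.sg.cont
  zero0 := h.sg₀.zero
  duhamel t ht x := h.duh x t ht

/-! ### BR1: pointwise derivative -/

lemma flowK_pos (hκ : 0 ≤ κ) (c : ℂ) {t : ℝ} (ht : 0 ≤ t) (f : XK d s κ) :
    (H42.flowK d s hκ c (4 * π ^ 2) t f : E d → ℂ) =ᵐ[volume] flowD c 1 t f := by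
  have h := H42.flowK_flowD (s := s) hκ c 1 ht f
  rwa [one_mul] at h

lemma flowK_neg (hκ : 0 ≤ κ) (c : ℂ) {t : ℝ} (ht : 0 ≤ t) (f : XK d s κ) :
    (H42.flowK d s hκ c (-(4 * π ^ 2)) t f : E d → ℂ) =ᵐ[volume] flowD c (-1) t f := by
  have h := H42.flowK_flowD (s := s) hκ c (-1) ht f
  rwa [neg_one_mul] at h

lemma hasDeriv_pos_ev (hκ : 0 < κ) (hs : 2 ≤ s) (c : ℂ) (f : XK d s κ) (y : E d) :
    HasDerivWithinAt (fun t => ev (H42.flowK d s hκ.le c (4 * π ^ 2) t f) y)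
      (Complex.I * (1 : ℝ) * lap (ev f) y - (1 / 2) * eul (ev f) y + c * ev f y) (Ici 0) 0 := by
  have h := (hasDerivAt_flowD_ev (XK.integrable hκ.le f) (XK.moment hκ f hs) c 1 y)
  refine (h.hasDerivWithinAt (s := Ici 0)).congr (fun t ht => ?_) ?_
  · exact fourierInv_congr_ae (flowK_pos hκ.le c ht f) y
  · exact fourierInv_congr_ae (flowK_pos hκ.le c le_rfl f) y

lemma hasDeriv_neg_ev (hκ : 0 < κ) (hs : 2 ≤ s) (c : ℂ) (f : XK d s κ) (y : E d) :
    HasDerivWithinAt (fun t => ev (H42.flowK d s hκ.le c (-(4 * π ^ 2)) t f) y)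
      (Complex.I * (-1 : ℝ) * lap (ev f) y - (1 / 2) * eul (ev f) y + c * ev f y) (Ici 0) 0 := by
  have h := (hasDerivAt_flowD_ev (XK.integrable hκ.le f) (XK.moment hκ f hs) c (-1) y)
  refine (h.hasDerivWithinAt (s := Ici 0)).congr (fun t ht => ?_) ?_
  · exact fourierInv_congr_ae (flowK_neg hκ.le c ht f) y
  · exact fourierInv_congr_ae (flowK_neg hκ.le c le_rfl f) y

/-! ### BR2: modes are eigenvectors -/

/-- a pointwise eigenpair is an eigenvector of the perturbed semigroup -/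
theorem mode_eig (hκ : 0 < κ) (hs : 2 ≤ s) {Q : E d → ℂ} {V1 V2 : XK d s κ}
    (hV1 : ∀ y, ev V1 y = W1 m (Q y)) (hV2 : ∀ y, ev V2 y = W2 m (Q y))
    {S : ℝ → (XK d s κ × XK d s κ) →L[ℂ] (XK d s κ × XK d s κ)}
    (h : H42.IsPert (H42.flowP d s hκ.le (cE m w) (4 * π ^ 2)) (H42.BX hκ.le m V1 V2) S) {lam : ℂ}
    {x : XK d s κ × XK d s κ}
    (h1 : ∀ y, LL1 m w Q (ev x.1) (ev x.2) y = lam * ev x.1 y)
    (h2 : ∀ y, LL2 m w Q (ev x.1) (ev x.2) y = lam * ev x.2 y) :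
    ∀ t : ℝ, 0 ≤ t → S t x = Complex.exp (lam * t) • x := by
  refine (toIsPert h).mode (fun t ht => ?_)
  set g := lam • x - H42.BX hκ.le m V1 V2 x with hg
  have hint : IntervalIntegrable (fun τ => H42.flowP d s hκ.le (cE m w) (4 * π ^ 2) τ g) volume 0 t := by
    apply ContinuousOn.intervalIntegrable
    rw [uIcc_of_le ht]
    exact (h.sg₀.cont g).mono Icc_subset_Ici_self
  have e1 : (∫ τ in (0 : ℝ)..t, H42.flowP d s hκ.le (cE m w) (4 * π ^ 2) τ g).1 =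
      ∫ τ in (0 : ℝ)..t, H42.flowK d s hκ.le (cE m w) (4 * π ^ 2) τ g.1 :=
    ((ContinuousLinearMap.fst ℂ (XK d s κ) (XK d s κ)).intervalIntegral_comp_comm hint).symm
  have e2 : (∫ τ in (0 : ℝ)..t, H42.flowP d s hκ.le (cE m w) (4 * π ^ 2) τ g).2 =
      ∫ τ in (0 : ℝ)..t, H42.flowK d s hκ.le (conj (cE m w)) (-(4 * π ^ 2)) τ g.2 :=
    ((ContinuousLinearMap.snd ℂ (XK d s κ) (XK d s κ)).intervalIntegral_comp_comm hint).symm
  refine Prod.ext (Eq.trans (b := x.1 + ∫ τ in (0 : ℝ)..t, H42.flowK d s hκ.le (cE m w) (4 * π ^ 2) τ g.1) ?_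
      (congrArg (fun z => x.1 + z) e1.symm))
    (Eq.trans (b := x.2 + ∫ τ in (0 : ℝ)..t, H42.flowK d s hκ.le (conj (cE m w)) (-(4 * π ^ 2)) τ g.2) ?_
      (congrArg (fun z => x.2 + z) e2.symm))
  · refine gen_duhamel hκ hs (fun t ht x => flowK_pos hκ.le _ ht x)
      (H42.flowK_isSG hκ.le (cE m w) (4 * π ^ 2)).cont (fun y => ?_) ht
    have e3 : ev g.1 y = lam * ev x.1 y - ev (H42.BX hκ.le m V1 V2 x).1 y := by
      rw [hg, Prod.fst_sub, Prod.smul_fst, ev_sub hκ.le, ev_smul hκ.le]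
    rw [e3, ev_BX_fst, hV1, hV2, ← h1 y, LL1, cE]
    push_cast
    ring
  · refine gen_duhamel hκ hs (fun t ht x => flowK_neg hκ.le _ ht x)
      (H42.flowK_isSG hκ.le (conj (cE m w)) (-(4 * π ^ 2))).cont (fun y => ?_) ht
    have e3 : ev g.2 y = lam * ev x.2 y - ev (H42.BX hκ.le m V1 V2 x).2 y := by
      rw [hg, Prod.snd_sub, Prod.smul_snd, ev_sub hκ.le, ev_smul hκ.le]
    rw [e3, ev_BX_snd, hV1, hV2, ← h2 y, LL2, conj_cE]
    push_cast
    ring

/-! ### BR3: hypothesis (H) -/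

/-- evaluation of pairs -/
noncomputable def evP (hκ : 0 ≤ κ) (y : E d) : (XK d s κ × XK d s κ) →L[ℂ] (ℂ × ℂ) :=
  (evL hκ y).prodMap (evL hκ y)

lemma evP_apply (hκ : 0 ≤ κ) (y : E d) (x : XK d s κ × XK d s κ) :
    evP hκ y x = (ev x.1 y, ev x.2 y) := rfl

/-- pairs of densities as pairs of functions -/
noncomputable def evF (hκ : 0 ≤ κ) : (XK d s κ × XK d s κ) →ₗ[ℂ] (E d → ℂ × ℂ) where
  toFun x y := evP hκ y x
  map_add' a b := by ext y <;> simp
  map_smul' c a := by ext y <;> simp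

lemma evF_injective (hκ : 0 ≤ κ) :
    Function.Injective (evF (d := d) (s := s) hκ) := by
  intro a b hab
  have h : ∀ y, (ev a.1 y, ev a.2 y) = (ev b.1 y, ev b.2 y) := fun y => congrFun hab y
  exact Prod.ext (ev_injective hκ fun y => (Prod.mk.inj (h y)).1)
    (ev_injective hκ fun y => (Prod.mk.inj (h y)).2)

/-- the combinations of the symmetry modes as functions -/
noncomputable def modeF (m : ℕ) (w : ℝ) (Q : E d → ℂ) :
    (ℂ × (Fin d → ℂ) × ℂ) →ₗ[ℂ] (E d → ℂ × ℂ) where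
  toFun c y := (cf m w Q c.1 c.2.1 c.2.2 y, cg m w Q c.1 c.2.1 c.2.2 y)
  map_add' a b := by
    ext y
    · simp only [cf, Prod.fst_add, Prod.snd_add, Pi.add_apply, add_mul, Finset.sum_add_distrib]
      ring
    · simp only [cg, Prod.fst_add, Prod.snd_add, Pi.add_apply, add_mul, Finset.sum_add_distrib]
      ring
  map_smul' c a := by
    ext y
    · simp only [cf, Prod.smul_fst, Prod.smul_snd, Pi.smul_apply, smul_eq_mul, RingHom.id_apply,
        mul_add, Finset.mul_sum, mul_assoc]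
    · simp only [cg, Prod.smul_fst, Prod.smul_snd, Pi.smul_apply, smul_eq_mul, RingHom.id_apply,
        mul_add, Finset.mul_sum, mul_assoc]

/-- the space of symmetry modes -/
noncomputable def EC (hκ : 0 ≤ κ) (m : ℕ) (w : ℝ) (Q : E d → ℂ) :
    Submodule ℂ (XK d s κ × XK d s κ) :=
  (LinearMap.range (modeF m w Q)).comap (evF hκ)

lemma mem_EC (hκ : 0 ≤ κ) {Q : E d → ℂ} {x : XK d s κ × XK d s κ} :
    x ∈ EC hκ m w Q ↔ InModes m w Q (ev x.1) (ev x.2) := by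
  rw [EC, Submodule.mem_comap, LinearMap.mem_range]
  constructor
  · rintro ⟨⟨c0, b, c1⟩, hc⟩
    refine ⟨c0, b, c1, fun y => ?_⟩
    have h : (cf m w Q c0 b c1 y, cg m w Q c0 b c1 y) = (ev x.1 y, ev x.2 y) := congrFun hc y
    exact ⟨(Prod.mk.inj h).1.symm, (Prod.mk.inj h).2.symm⟩
  · rintro ⟨c0, b, c1, hc⟩
    refine ⟨(c0, b, c1), ?_⟩
    funext y
    exact Prod.ext (hc y).1.symm (hc y).2.symm

instance (hκ : 0 ≤ κ) (Q : E d → ℂ) :
    FiniteDimensional ℂ (EC (s := s) hκ m w Q) := by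
  have hr : ∀ x : EC (s := s) hκ m w Q, evF hκ x.1 ∈ LinearMap.range (modeF m w Q) :=
    fun x => x.2
  let Φ : EC (s := s) hκ m w Q →ₗ[ℂ] LinearMap.range (modeF m w Q) :=
    ((evF hκ).comp (Submodule.subtype _)).codRestrict _ hr
  refine FiniteDimensional.of_injective Φ fun a b hab => ?_
  apply Subtype.ext
  apply evF_injective hκ
  exact congrArg Subtype.val hab

/-- **(H)**: generalised eigenvectors with `0 ≤ Re λ` modulo the symmetry modes are symmetry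
modes. -/
theorem hyp_H (hκ : 0 < κ) (hm : 1 ≤ m) {K : ℕ} (hK : 2 ≤ K) (hKs : K ≤ s) {Q : E d → ℂ}
    (hQ : IsProfile d m w Q) (hMS : ModeStable (d := d) m K w Q) {V1 V2 : XK d s κ}
    (hV1 : ∀ y, ev V1 y = W1 m (Q y)) (hV2 : ∀ y, ev V2 y = W2 m (Q y))
    {S : ℝ → (XK d s κ × XK d s κ) →L[ℂ] (XK d s κ × XK d s κ)}
    (h : H42.IsPert (H42.flowP d s hκ.le (cE m w) (4 * π ^ 2)) (H42.BX hκ.le m V1 V2) S) {lam : ℂ} (hl : 0 ≤ lam.re)
    {x : XK d s κ × XK d s κ}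
    (hx : ∀ t : ℝ, 0 ≤ t → S t x - Complex.exp (lam * t) • x ∈ EC hκ.le m w Q) :
    x ∈ EC hκ.le m w Q := by
  obtain ⟨e, he, hey⟩ := (toIsPert h).pointwise_of_eigen (fun y => evP hκ.le y) (x := x)
    (A0 := fun y => (Complex.I * (1 : ℝ) * lap (ev x.1) y - (1 / 2) * eul (ev x.1) y +
        cE m w * ev x.1 y, Complex.I * (-1 : ℝ) * lap (ev x.2) y - (1 / 2) * eul (ev x.2) y +
        conj (cE m w) * ev x.2 y))
    (fun y => (hasDeriv_pos_ev hκ (hK.trans hKs) (cE m w) x.1 y).prodMk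
      (hasDeriv_neg_ev hκ (hK.trans hKs) (conj (cE m w)) x.2 y))
    (EC hκ.le m w Q) lam hx
  rw [mem_EC] at he ⊢
  refine quotient_form hm hK hQ hMS hl ((XK.bddC hκ x.1).mono hKs) ((XK.bddC hκ x.2).mono hKs) ?_
  obtain ⟨c0, b, c1, hc⟩ := he
  refine ⟨c0, b, c1, fun y => ?_⟩
  have hy := hey y
  simp only [evP_apply] at hy
  rw [Prod.ext_iff] at hy
  have hy1 := hy.1
  have hy2 := hy.2
  simp only [Prod.fst_add, Prod.fst_sub, Prod.snd_add, Prod.snd_sub, Prod.smul_fst,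
    Prod.smul_snd, smul_eq_mul, ev_BX_fst, ev_BX_snd, hV1, hV2] at hy1 hy2
  refine ⟨?_, ?_⟩
  · rw [← (hc y).1, ← hy1]
    simp only [LL1, cE]
    push_cast
    ring
  · rw [← (hc y).2, ← hy2]
    simp only [LL2, conj_cE]
    push_cast
    ring

end Vale.Agent.P139.H25
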