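import Mathlib

/-!
Abstract lemmas on a bounded perturbation `S` of a strongly continuous semigroup `S0`, given by
Duhamel's formula. No generators are used.
-/

set_option linter.unusedSectionVars false

open Set Filter Topology MeasureTheory

namespace Vale.Agent.P139.H25

variable {X : Type*} [NormedAddCommGroup X] [NormedSpace ℂ X] [CompleteSpace X]
  {F : Type*} [NormedAddCommGroup F] [NormedSpace ℂ F]

/-- Strong continuity on the half line gives bounds on compact intervals. -/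
theorem exists_bound {S : ℝ → X →L[ℂ] X} (h : ∀ x, ContinuousOn (fun t => S t x) (Ici 0))
    (T : ℝ) : ∃ C, 0 ≤ C ∧ ∀ t ∈ Icc (0 : ℝ) T, ‖S t‖ ≤ C := by
  obtain ⟨C, hC⟩ := banach_steinhaus (g := fun t : Icc (0 : ℝ) T => S t) (by
    intro x
    have hc : ContinuousOn (fun t => ‖S t x‖) (Icc 0 T) :=
      ((h x).mono Icc_subset_Ici_self).norm
    obtain ⟨M, hM⟩ := (isCompact_Icc.image_of_continuousOn hc).bddAbove
    exact ⟨M, fun t => hM ⟨t, t.2, rfl⟩⟩)
  exact ⟨max C 0, le_max_right _ _, fun t ht => (hC ⟨t, ht⟩).trans (le_max_left _ _)⟩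

/-- Joint continuity of a strongly continuous family. -/
theorem continuousOn_comp {S : ℝ → X →L[ℂ] X} (h : ∀ x, ContinuousOn (fun t => S t x) (Ici 0))
    {g : ℝ → ℝ} {u : ℝ → X} {s : Set ℝ} (hg : ContinuousOn g s) (hu : ContinuousOn u s)
    (hs : ∀ τ ∈ s, 0 ≤ g τ) : ContinuousOn (fun τ => S (g τ) (u τ)) s := by
  intro τ hτ
  obtain ⟨C, hC0, hC⟩ := exists_bound h (g τ + 1)
  have h1 : ContinuousWithinAt (fun σ => S (g σ) (u τ)) s τ :=
    ((h (u τ)) (g τ) (hs τ hτ)).comp (hg τ hτ) (fun σ hσ => hs σ hσ)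
  have h2 : Tendsto (fun σ => S (g σ) (u σ) - S (g σ) (u τ)) (𝓝[s] τ) (𝓝 0) := by
    have h3 : Tendsto (fun σ => C * ‖u σ - u τ‖) (𝓝[s] τ) (𝓝 0) := by
      have := ((hu τ hτ).sub_const (u τ)).norm.const_mul C
      simpa using this
    refine squeeze_zero_norm' ?_ h3
    have h4 : ∀ᶠ σ in 𝓝[s] τ, g σ < g τ + 1 :=
      (hg τ hτ).eventually (gt_mem_nhds (by linarith))
    filter_upwards [h4, self_mem_nhdsWithin] with σ h5 h6
    rw [← map_sub]
    exact ((S (g σ)).le_opNorm _).trans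
      (mul_le_mul_of_nonneg_right (hC _ ⟨hs σ h6, h5.le⟩) (norm_nonneg _))
  have h5 := h1.tendsto.add h2
  rw [ContinuousWithinAt]
  simpa using h5

/-- The family `S` is the perturbation of `S0` by the bounded operator `B`. -/
structure IsPert (S0 S : ℝ → X →L[ℂ] X) (B : X →L[ℂ] X) : Prop where
  cont0 : ∀ x, ContinuousOn (fun t => S0 t x) (Ici 0)
  cont : ∀ x, ContinuousOn (fun t => S t x) (Ici 0)
  zero0 : S0 0 = 1
  duhamel : ∀ t, 0 ≤ t → ∀ x, S t x = S0 t x + ∫ τ in (0 : ℝ)..t, S0 (t - τ) (B (S τ x))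

namespace IsPert

variable {S0 S : ℝ → X →L[ℂ] X} {B : X →L[ℂ] X}

theorem zero (h : IsPert S0 S B) : S 0 = 1 := by
  ext x
  rw [h.duhamel 0 le_rfl x, h.zero0]
  simp

theorem continuousOn_integrand (h : IsPert S0 S B) {t : ℝ} {u : ℝ → X}
    (hu : ContinuousOn u (Icc 0 t)) :
    ContinuousOn (fun τ => S0 (t - τ) (B (u τ))) (Icc 0 t) :=
  continuousOn_comp h.cont0 (continuousOn_const.sub continuousOn_id)
    (B.continuous.comp_continuousOn hu) (fun τ hτ => sub_nonneg.mpr hτ.2)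

theorem intervalIntegrable (h : IsPert S0 S B) {t : ℝ} (ht : 0 ≤ t) {u : ℝ → X}
    (hu : ContinuousOn u (Icc 0 t)) :
    IntervalIntegrable (fun τ => S0 (t - τ) (B (u τ))) volume 0 t :=
  ContinuousOn.intervalIntegrable (by
    rw [uIcc_of_le ht]
    exact h.continuousOn_integrand hu)

/-- The Duhamel term is differentiable from the right at time zero. -/
theorem hasDeriv_duhamel (h : IsPert S0 S B) (x : X) :
    HasDerivWithinAt (fun t => ∫ τ in (0 : ℝ)..t, S0 (t - τ) (B (S τ x))) (B x) (Ici 0) 0 := by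
  obtain ⟨C, hC0, hC⟩ := exists_bound h.cont0 1
  rw [hasDerivWithinAt_iff_isLittleO, Asymptotics.isLittleO_iff]
  intro ε hε
  have h1 : ∀ᶠ t in 𝓝[Ici (0 : ℝ)] 0, ‖S0 t (B x) - B x‖ < ε / 2 := by
    have := h.cont0 (B x) 0 (mem_Ici.mpr le_rfl)
    have h0 : S0 0 (B x) = B x := by rw [h.zero0]; rfl
    rw [ContinuousWithinAt, h0] at this
    have h2 := (this.sub_const (B x)).norm
    rw [sub_self, norm_zero] at h2
    exact h2.eventually (gt_mem_nhds (half_pos hε))
  have h2 : ∀ᶠ t in 𝓝[Ici (0 : ℝ)] 0, C * ‖B (S t x - x)‖ < ε / 2 := by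
    have := h.cont x 0 (mem_Ici.mpr le_rfl)
    have h0 : S 0 x = x := by rw [h.zero]; rfl
    rw [ContinuousWithinAt, h0] at this
    have h3 := (((B.continuous.tendsto _).comp (this.sub_const x)).norm).const_mul C
    simp only [sub_self, map_zero, norm_zero, mul_zero] at h3
    exact h3.eventually (gt_mem_nhds (half_pos hε))
  obtain ⟨δ, hδ, hδ'⟩ := Metric.mem_nhdsWithin_iff.mp (Filter.inter_mem h1 h2)
  have hball : ∀ᶠ t in 𝓝[Ici (0 : ℝ)] 0, t < min δ 1 := by
    apply mem_nhdsWithin_of_mem_nhds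
    exact gt_mem_nhds (lt_min hδ one_pos)
  filter_upwards [self_mem_nhdsWithin, hball] with t ht htδ
  have ht0 : (0 : ℝ) ≤ t := ht
  have htδ' : t < δ := lt_of_lt_of_le htδ (min_le_left _ _)
  have ht1 : t ≤ 1 := (lt_of_lt_of_le htδ (min_le_right _ _)).le
  have key : ∀ τ ∈ Set.uIoc (0 : ℝ) t, ‖S0 (t - τ) (B (S τ x)) - B x‖ ≤ ε := by
    intro τ hτ
    rw [uIoc_of_le ht0] at hτ
    have a1 : 0 ≤ t - τ := by linarith [hτ.2]
    have a2 : |t - τ| < δ := by rw [abs_of_nonneg a1]; linarith [hτ.1]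
    have a3 : |τ| < δ := by rw [abs_of_pos hτ.1]; linarith [hτ.2]
    have b1 := (hδ' ⟨by simpa [Real.dist_eq] using a2, a1⟩).1
    have b2 := (hδ' ⟨by simpa [Real.dist_eq] using a3, hτ.1.le⟩).2
    replace b1 : ‖S0 (t - τ) (B x) - B x‖ < ε / 2 := b1
    replace b2 : C * ‖B (S τ x - x)‖ < ε / 2 := b2
    have e : S0 (t - τ) (B (S τ x)) - B x =
        S0 (t - τ) (B (S τ x - x)) + (S0 (t - τ) (B x) - B x) := by
      rw [map_sub, map_sub]; abel
    rw [e]
    calc _ ≤ ‖S0 (t - τ) (B (S τ x - x))‖ + ‖S0 (t - τ) (B x) - B x‖ := norm_add_le _ _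
      _ ≤ C * ‖B (S τ x - x)‖ + ‖S0 (t - τ) (B x) - B x‖ := by
          gcongr
          exact ((S0 (t - τ)).le_opNorm _).trans (by
            gcongr
            exact hC _ ⟨a1, by linarith [hτ.1]⟩)
      _ ≤ ε / 2 + ε / 2 := by gcongr
      _ = ε := by ring
  have e1 : (∫ τ in (0 : ℝ)..t, S0 (t - τ) (B (S τ x))) -
      (∫ τ in (0 : ℝ)..0, S0 (0 - τ) (B (S τ x))) - (t - 0) • B x =
      ∫ τ in (0 : ℝ)..t, (S0 (t - τ) (B (S τ x)) - B x) := by
    rw [intervalIntegral.integral_sub (h.intervalIntegrable ht0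
      ((h.cont x).mono Icc_subset_Ici_self)) _root_.intervalIntegrable_const,
      intervalIntegral.integral_const, intervalIntegral.integral_same, sub_zero]
  rw [e1]
  calc _ ≤ ε * |t - 0| := intervalIntegral.norm_integral_le_of_norm_le_const key
    _ = ε * ‖t - 0‖ := by rw [Real.norm_eq_abs]

/-- The right derivative at time zero of a linear functional of the perturbed family. -/
theorem hasDeriv (h : IsPert S0 S B) (ℓ : X →L[ℂ] F) {x : X} {D : F}
    (hD : HasDerivWithinAt (fun t => ℓ (S0 t x)) D (Ici 0) 0) :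
    HasDerivWithinAt (fun t => ℓ (S t x)) (D + ℓ (B x)) (Ici 0) 0 := by
  have h1 := (ℓ.restrictScalars ℝ).hasFDerivAt.comp_hasDerivWithinAt (0 : ℝ)
    (h.hasDeriv_duhamel x)
  have h2 := hD.add h1
  refine h2.congr ?_ ?_
  · intro t ht
    simp only [Pi.add_apply, Function.comp_apply, ContinuousLinearMap.coe_restrictScalars']
    rw [h.duhamel t ht x, map_add]
  · simp only [Pi.add_apply, Function.comp_apply, ContinuousLinearMap.coe_restrictScalars']
    rw [h.duhamel 0 le_rfl x, map_add]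

/-- Uniqueness for the Volterra equation. -/
theorem unique (h : IsPert S0 S B) {x : X} {u : ℝ → X} (hu : ContinuousOn u (Ici 0))
    (hd : ∀ t, 0 ≤ t → u t = S0 t x + ∫ τ in (0 : ℝ)..t, S0 (t - τ) (B (u τ))) :
    ∀ t, 0 ≤ t → u t = S t x := by
  intro T hT
  obtain ⟨C, hC0, hC⟩ := exists_bound h.cont0 T
  -- Gronwall for the difference
  set v : ℝ → X := fun t => u t - S t x with hv
  have hvc : ContinuousOn v (Ici 0) := hu.sub (h.cont x)
  have hvd : ∀ t ∈ Icc (0 : ℝ) T, ‖v t‖ ≤ C * ‖B‖ * ∫ τ in (0 : ℝ)..t, ‖v τ‖ := by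
    intro t ht
    have e : v t = ∫ τ in (0 : ℝ)..t, S0 (t - τ) (B (v τ)) := by
      simp only [hv]
      rw [hd t ht.1, h.duhamel t ht.1 x, add_sub_add_left_eq_sub,
        ← intervalIntegral.integral_sub
          (h.intervalIntegrable ht.1 (hu.mono Icc_subset_Ici_self))
          (h.intervalIntegrable ht.1 ((h.cont x).mono Icc_subset_Ici_self))]
      simp only [map_sub]
    rw [e, ← intervalIntegral.integral_const_mul]
    refine (intervalIntegral.norm_integral_le_integral_norm ht.1).trans ?_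
    refine intervalIntegral.integral_mono_on ht.1
      (h.intervalIntegrable ht.1 (hvc.mono Icc_subset_Ici_self)).norm ?_ ?_
    · apply ContinuousOn.intervalIntegrable
      rw [uIcc_of_le ht.1]
      exact ((hvc.mono Icc_subset_Ici_self).norm).const_smul (C * ‖B‖)
    · intro τ hτ
      calc ‖S0 (t - τ) (B (v τ))‖ ≤ ‖S0 (t - τ)‖ * ‖B (v τ)‖ := (S0 (t - τ)).le_opNorm _
        _ ≤ C * (‖B‖ * ‖v τ‖) := by
            gcongr
            · exact hC _ ⟨by linarith [hτ.2], by linarith [hτ.1, ht.2]⟩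
            · exact B.le_opNorm _
        _ = C * ‖B‖ * ‖v τ‖ := by ring
  -- the primitive of ‖v‖ vanishes
  set K := C * ‖B‖ with hK
  have hK0 : 0 ≤ K := by positivity
  set G : ℝ → ℝ := fun t => ∫ τ in (0 : ℝ)..t, ‖v τ‖ with hG
  have hGc : ContinuousOn G (Icc 0 T) := by
    have := intervalIntegral.continuousOn_primitive_interval (a := (0 : ℝ)) (b := T)
      (f := fun τ => ‖v τ‖) (μ := volume) (by
        rw [uIcc_of_le hT]
        exact ((hvc.mono Icc_subset_Ici_self).norm).integrableOn_Icc)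
    rwa [uIcc_of_le hT] at this
  have hGd : ∀ t ∈ Ico (0 : ℝ) T, HasDerivWithinAt G ‖v t‖ (Ici t) t := by
    intro t ht
    have hi : IntervalIntegrable (fun τ => ‖v τ‖) volume 0 t := by
      apply ContinuousOn.intervalIntegrable
      rw [uIcc_of_le ht.1]
      exact (hvc.mono Icc_subset_Ici_self).norm
    have hct : ContinuousWithinAt (fun τ => ‖v τ‖) (Ioi t) t :=
      (hvc t ht.1).norm.mono (Ioi_subset_Ici ht.1)
    refine intervalIntegral.integral_hasDerivWithinAt_right hi ?_ hct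
    exact ((hvc.norm).mono (Ioi_subset_Ici ht.1)).stronglyMeasurableAtFilter_nhdsWithin
      measurableSet_Ioi t
  have hG0 : G 0 = 0 := by simp [hG]
  have := norm_le_gronwallBound_of_norm_deriv_right_le hGc hGd (δ := 0) (K := K) (ε := 0)
    (by simp [hG0]) (by
      intro t ht
      rw [norm_norm, add_zero]
      refine (hvd t ⟨ht.1, ht.2.le⟩).trans ?_
      gcongr
      exact le_abs_self _)
  have hGT := this T ⟨hT, le_rfl⟩
  rw [gronwallBound_ε0, zero_mul] at hGT
  have hGT0 : G T = 0 := norm_le_zero_iff.mp hGT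
  have h3 := hvd T ⟨hT, le_rfl⟩
  have h4 : ‖v T‖ ≤ 0 := by
    have : (∫ τ in (0 : ℝ)..T, ‖v τ‖) = 0 := hGT0
    rw [this, mul_zero] at h3
    exact h3
  exact sub_eq_zero.mp (norm_le_zero_iff.mp h4)

end IsPert

end Vale.Agent.P139.H25
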