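import Vale.Agent.P139.H25.Flow

/-!
# P139 : weak form of the generator of the free flow
-/

open MeasureTheory Real FourierTransform Filter Topology
open scoped ComplexConjugate ContDiff ENNReal InnerProductSpace

namespace Vale.Agent.P139.H25

open Vale.Agent.P139.BU

variable {d s : ℕ} {κ : ℝ}

/-- Parseval for integrable functions -/
theorem parseval {a b : E d → ℂ} (ha : Integrable a) (hb : Integrable b) :
    ∫ x, 𝓕⁻ a x * b x = ∫ x, a x * 𝓕⁻ b x := by
  have h5 := VectorFourier.integral_fourierIntegral_smul_eq_flip (e := 𝐞)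
    (L := -innerₗ (E d)) (μ := volume) (ν := volume)
    (f := a) (g := b) Real.continuous_fourierChar
    (by simpa using! (by fun_prop : Continuous fun p : E d × E d => -(inner ℝ p.1 p.2)))
    ha hb
  have : (-innerₗ (E d)).flip = -innerₗ (E d) := by
    ext x y
    simp [real_inner_comm]
  rw [this] at h5
  exact h5

lemma continuous_fi {a : E d → ℂ} (ha : Integrable a) : Continuous (𝓕⁻ a) := by
  have := VectorFourier.fourierIntegral_continuous Real.continuous_fourierChar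
    (L := -innerₗ (E d)) (μ := volume)
    (by simpa using! (by fun_prop : Continuous fun p : E d × E d => -(inner ℝ p.1 p.2))) ha
  exact this

lemma norm_fi_le (a : E d → ℂ) (y : E d) : ‖𝓕⁻ a y‖ ≤ ∫ ξ, ‖a ξ‖ := by
  rw [fourierInv_eq]
  refine (norm_integral_le_integral_norm _).trans (le_of_eq ?_)
  simp_rw [Circle.norm_smul]

lemma integrable_fi_mul {a b : E d → ℂ} (ha : Integrable a) (hb : Integrable b) :
    Integrable fun x => 𝓕⁻ a x * b x :=
  hb.bdd_mul (continuous_fi ha).aestronglyMeasurable (Eventually.of_forall (norm_fi_le a))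

lemma fderiv_self_eq (G : E d → ℂ) (ξ : E d) :
    fderiv ℝ G ξ ξ = ∑ j, (ξ j : ℂ) * pd j G ξ := by
  have e : ∑ j, (ξ j) • EuclideanSpace.single j (1 : ℝ) = ξ := by
    simpa using! ((EuclideanSpace.basisFun (Fin d) ℝ).sum_repr ξ)
  have h : fderiv ℝ G ξ (∑ j, (ξ j) • EuclideanSpace.single j (1 : ℝ)) =
      ∑ j, (ξ j : ℂ) * pd j G ξ := by
    rw [map_sum]
    refine Finset.sum_congr rfl fun j _ => ?_
    rw [map_smul, Complex.real_smul, pd]
  rwa [e] at h

lemma fi_const_mul (c : ℂ) (a : E d → ℂ) (y : E d) :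
    𝓕⁻ (fun ξ => c * a ξ) y = c * 𝓕⁻ a y := by
  rw [fourierInv_eq, fourierInv_eq, ← integral_const_mul]
  apply integral_congr_ae
  filter_upwards with ξ
  rw [Circle.smul_def, Circle.smul_def, smul_eq_mul, smul_eq_mul]
  ring

lemma integrable_coord {φ : E d → ℂ} (h0 : AEStronglyMeasurable φ volume)
    (h1 : Integrable fun ξ => ‖ξ‖ * ‖φ ξ‖) (j : Fin d) :
    Integrable (fun ξ => (ξ j : ℂ) * φ ξ) := by
  refine integrable_lin h0 h1 (by fun_prop) (C := 1) fun ξ => ?_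
  rw [Complex.norm_real, one_mul]
  exact PiLp.norm_apply_le ξ j

lemma integrable_sq {φ : E d → ℂ} (h0 : AEStronglyMeasurable φ volume)
    (h2 : Integrable fun ξ => ‖ξ‖ ^ 2 * ‖φ ξ‖) :
    Integrable (fun ξ => (-(4 * π ^ 2 * ‖ξ‖ ^ 2 : ℝ) : ℂ) * φ ξ) := by
  refine (h2.const_mul (4 * π ^ 2)).mono
    ((Continuous.aestronglyMeasurable (by fun_prop)).mul h0) (Eventually.of_forall fun ξ => ?_)
  rw [norm_mul, norm_neg, Complex.norm_real, Real.norm_of_nonneg (by positivity),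
    Real.norm_of_nonneg (by positivity)]
  exact le_of_eq (by ring)

/-- **Weak form.**  If `h` is the generator applied to `φ` (pointwise, after Fourier
transform), then `∫ h Γ = ∫ φ (L* Γ)` for test functions `Γ`. -/
theorem weak_gen {φ h : E d → ℂ} (h0 : Integrable φ)
    (h2 : Integrable fun ξ => ‖ξ‖ ^ 2 * ‖φ ξ‖) (hh : Integrable h) {c : ℂ} {σ : ℝ}
    (heq : ∀ y, 𝓕⁻ h y = Complex.I * σ * lap (𝓕⁻ φ) y - (1 / 2) * eul (𝓕⁻ φ) y + c * 𝓕⁻ φ y)
    {Γ : E d → ℂ} (hΓ : ContDiff ℝ ∞ Γ) (hs : HasCompactSupport Γ) :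
    ∫ ξ, h ξ * Γ ξ = ∫ ξ, φ ξ * Lst c σ Γ ξ := by
  have h1 := moment_one h0 h2
  set S := hs.toSchwartzMap hΓ with hS
  set γ : SchwartzMap (E d) ℂ := 𝓕 S with hγ
  have hγΓ : 𝓕⁻ (γ : E d → ℂ) = Γ := by
    rw [← SchwartzMap.fourierInv_coe, hγ, FourierTransform.fourierInv_fourier_eq]
    rfl
  have gi : Integrable (γ : E d → ℂ) := γ.integrable
  have g1 : Integrable fun y => ‖y‖ * ‖γ y‖ := by
    simpa using γ.integrable_pow_mul volume 1
  have hpd : ∀ (j : Fin d) (ξ : E d),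
      𝓕⁻ (fun y => (2 * π * Complex.I * (y j : ℂ)) * γ y) ξ = pd j Γ ξ := by
    intro j ξ
    rw [← pd_fi gi g1 j ξ, hγΓ]
  -- the left side
  have e1 : ∫ ξ, h ξ * Γ ξ = ∫ y, 𝓕⁻ h y * γ y := by
    rw [parseval hh gi, hγΓ]
  have e2 : ∀ y, 𝓕⁻ h y * γ y =
      Complex.I * σ * (𝓕⁻ (fun ξ => (-(4 * π ^ 2 * ‖ξ‖ ^ 2 : ℝ) : ℂ) * φ ξ) y * γ y)
      - (1 / 2) * (∑ j, 𝓕⁻ (fun ξ => (ξ j : ℂ) * φ ξ) y *
        ((2 * π * Complex.I * (y j : ℂ)) * γ y)) + c * (𝓕⁻ φ y * γ y) := by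
    intro y
    rw [heq, lap_fi h0 h2]
    have e3 : eul (𝓕⁻ φ) y * γ y = ∑ j, 𝓕⁻ (fun ξ => (ξ j : ℂ) * φ ξ) y *
        ((2 * π * Complex.I * (y j : ℂ)) * γ y) := by
      rw [eul, fderiv_self_eq, Finset.sum_mul]
      refine Finset.sum_congr rfl fun j _ => ?_
      rw [pd_fi h0 h1 j y]
      have : (fun ξ : E d => (2 * π * Complex.I * (ξ j : ℂ)) * φ ξ) =
          fun ξ => (2 * π * Complex.I) * ((ξ j : ℂ) * φ ξ) := by
        ext ξ; ring
      rw [this, fi_const_mul]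
      ring
    rw [← e3]
    ring
  have i1 : Integrable fun y =>
      𝓕⁻ (fun ξ => (-(4 * π ^ 2 * ‖ξ‖ ^ 2 : ℝ) : ℂ) * φ ξ) y * γ y :=
    integrable_fi_mul (integrable_sq h0.1 h2) gi
  have i2 : ∀ j, Integrable fun y : E d => 𝓕⁻ (fun ξ => (ξ j : ℂ) * φ ξ) y *
        ((2 * π * Complex.I * (y j : ℂ)) * γ y) := fun j =>
    integrable_fi_mul (integrable_coord h0.1 h1 j) (integrable_pd gi.1 g1 j)
  have i3 : Integrable fun y => 𝓕⁻ φ y * γ y := integrable_fi_mul h0 gi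
  have e4 : ∫ y, 𝓕⁻ h y * γ y =
      Complex.I * σ * (∫ ξ, (-(4 * π ^ 2 * ‖ξ‖ ^ 2 : ℝ) : ℂ) * φ ξ * Γ ξ)
      - (1 / 2) * (∑ j, ∫ ξ, (ξ j : ℂ) * φ ξ * pd j Γ ξ) + c * (∫ ξ, φ ξ * Γ ξ) := by
    simp only [e2]
    rw [integral_add, integral_sub, integral_const_mul, integral_const_mul, integral_const_mul,
      integral_finsetSum _ fun j _ => i2 j, parseval (integrable_sq h0.1 h2) gi,
      parseval h0 gi, hγΓ]
    · congr 3
      refine Finset.sum_congr rfl fun j _ => ?_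
      rw [parseval (integrable_coord h0.1 h1 j) (integrable_pd gi.1 g1 j)]
      simp only [hpd]
    · exact i1.const_mul _
    · exact (integrable_finsetSum _ fun j _ => i2 j).const_mul _
    · exact (i1.const_mul _).sub ((integrable_finsetSum _ fun j _ => i2 j).const_mul _)
    · exact i3.const_mul _
  -- the right side
  obtain ⟨CΓ, hCΓ⟩ := hΓ.continuous.bounded_above_of_compact_support hs
  have hpc : ∀ j : Fin d, Continuous (pd j Γ) := fun j =>
    (hΓ.continuous_fderiv (by simp)).clm_apply continuous_const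
  have hps : ∀ j : Fin d, HasCompactSupport (pd j Γ) := fun j =>
    (hs.fderiv (𝕜 := ℝ)).comp_left (g := fun L : E d →L[ℝ] ℂ =>
      L (EuclideanSpace.single j (1 : ℝ))) (by simp)
  have r1 : Integrable fun ξ => (-(4 * π ^ 2 * ‖ξ‖ ^ 2 : ℝ) : ℂ) * φ ξ * Γ ξ :=
    (integrable_sq h0.1 h2).mul_bdd hΓ.continuous.aestronglyMeasurable
      (Eventually.of_forall hCΓ)
  have r2 : ∀ j, Integrable fun ξ : E d => (ξ j : ℂ) * φ ξ * pd j Γ ξ := fun j => by
    obtain ⟨C, hC⟩ := (hpc j).bounded_above_of_compact_support (hps j)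
    exact (integrable_coord h0.1 h1 j).mul_bdd (hpc j).aestronglyMeasurable
      (Eventually.of_forall hC)
  have r3 : Integrable fun ξ => φ ξ * Γ ξ :=
    h0.mul_bdd hΓ.continuous.aestronglyMeasurable (Eventually.of_forall hCΓ)
  rw [e1, e4]
  have e5 : ∀ ξ, φ ξ * Lst c σ Γ ξ =
      Complex.I * σ * ((-(4 * π ^ 2 * ‖ξ‖ ^ 2 : ℝ) : ℂ) * φ ξ * Γ ξ)
      - (1 / 2) * (∑ j, (ξ j : ℂ) * φ ξ * pd j Γ ξ) + c * (φ ξ * Γ ξ) := by
    intro ξ
    have : ∑ j, (ξ j : ℂ) * φ ξ * pd j Γ ξ = φ ξ * fderiv ℝ Γ ξ ξ := by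
      rw [fderiv_self_eq, Finset.mul_sum]
      exact Finset.sum_congr rfl fun j _ => by ring
    rw [this, Lst]
    ring
  simp only [e5]
  rw [integral_add, integral_sub, integral_const_mul, integral_const_mul, integral_const_mul,
      integral_finsetSum _ fun j _ => r2 j]
  · exact r1.const_mul _
  · exact (integrable_finsetSum _ fun j _ => r2 j).const_mul _
  · exact (r1.const_mul _).sub ((integrable_finsetSum _ fun j _ => r2 j).const_mul _)
  · exact r3.const_mul _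

end Vale.Agent.P139.H25
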