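import Vale.Agent.P139.H25.Gen

/-!
# P139 : elements on which the generator of the free flow acts pointwise (Lemma GEN)
-/

open MeasureTheory Real FourierTransform Filter Topology
open scoped ComplexConjugate ContDiff ENNReal InnerProductSpace

namespace Vale.Agent.P139.H25

open Vale.Agent.P139.BU

variable {d s : ℕ} {κ : ℝ}

/-- the transported test function -/
noncomputable def Gt (c : ℂ) (σ t : ℝ) (G : E d → ℂ) (η : E d) : ℂ :=
  ph c σ t η * G (Real.exp (-(t / 2)) • η)

lemma contDiff_ph (c : ℂ) (σ t : ℝ) : ContDiff ℝ ∞ (ph (d := d) c σ t) := by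
  unfold ph
  have h1 : ContDiff ℝ ∞ (fun η : E d => (4 * π ^ 2 * ‖η‖ ^ 2 : ℝ)) :=
    contDiff_const.mul (contDiff_norm_sq ℝ)
  have h2 : ContDiff ℝ ∞ (fun η : E d => ((4 * π ^ 2 * ‖η‖ ^ 2 : ℝ) : ℂ)) :=
    Complex.ofRealCLM.contDiff.comp h1
  exact (contDiff_const.sub ((contDiff_const.mul h2).mul contDiff_const)).cexp

lemma contDiff_Gt (c : ℂ) (σ t : ℝ) {G : E d → ℂ} (hG : ContDiff ℝ ∞ G) :
    ContDiff ℝ ∞ (Gt c σ t G) :=
  (contDiff_ph c σ t).mul (hG.comp (contDiff_const_smul (Real.exp (-(t / 2)))))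

lemma hasCompactSupport_Gt (c : ℂ) (σ t : ℝ) {G : E d → ℂ} (hG : HasCompactSupport G) :
    HasCompactSupport (Gt c σ t G) := by
  have h : HasCompactSupport (fun η : E d => G (Real.exp (-(t / 2)) • η)) :=
    hG.comp_smul (Real.exp_pos _).ne'
  exact h.mul_left

/-- pointwise time derivative of the transported test function -/
lemma hasDerivAt_Gt (c : ℂ) (σ t : ℝ) {G : E d → ℂ} (hG : Differentiable ℝ G) (η : E d) :
    HasDerivAt (fun t => Gt c σ t G η)
      (ph c σ t η * Lst c σ G (Real.exp (-(t / 2)) • η)) t := by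
  have h1 : HasDerivAt (fun t : ℝ => Real.exp (-t)) (-Real.exp (-t)) t := by
    simpa using (hasDerivAt_neg t).exp
  have h2 : HasDerivAt (fun t : ℝ => ((1 - Real.exp (-t) : ℝ) : ℂ)) ((Real.exp (-t) : ℝ) : ℂ) t := by
    have := (h1.const_sub 1).ofReal_comp
    simpa using this
  have h3 : HasDerivAt (fun t : ℝ => c * (t : ℂ)) c t := by
    simpa using (hasDerivAt_id t).ofReal_comp.const_mul c
  have h4 : HasDerivAt (fun t => ph c σ t η) (ph c σ t η *
      (c - Complex.I * σ * (4 * π ^ 2 * ‖η‖ ^ 2 : ℝ) * (Real.exp (-t) : ℝ))) t := by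
    unfold ph
    exact (h3.sub (h2.const_mul _)).cexp
  have h5 : HasDerivAt (fun t : ℝ => Real.exp (-(t / 2))) (-(1 / 2) * Real.exp (-(t / 2))) t := by
    have h := ((hasDerivAt_id' t).div_const 2).fun_neg.exp
    refine h.congr_deriv ?_
    ring
  have h6 : HasDerivAt (fun t : ℝ => G (Real.exp (-(t / 2)) • η))
      (fderiv ℝ G (Real.exp (-(t / 2)) • η) ((-(1 / 2) * Real.exp (-(t / 2))) • η)) t :=
    (hG _).hasFDerivAt.comp_hasDerivAt t (h5.smul_const η)
  have h7 := h4.mul h6
  refine h7.congr_deriv ?_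
  rw [Lst, mul_smul, map_smul, norm_smul, Real.norm_of_nonneg (Real.exp_pos _).le]
  have e4 : Real.exp (-(t / 2)) ^ 2 = Real.exp (-t) := by
    rw [← Real.exp_nat_mul]; congr 1; push_cast; ring
  rw [mul_pow, e4, Complex.real_smul]
  push_cast
  ring

/-- the adjoint generator commutes with the transport -/
lemma Lst_Gt (c : ℂ) (σ t : ℝ) {G : E d → ℂ} (hG : ContDiff ℝ ∞ G) (η : E d) :
    Lst c σ (Gt c σ t G) η = ph c σ t η * Lst c σ G (Real.exp (-(t / 2)) • η) := by
  have hd : Differentiable ℝ (Gt c σ t G) := (contDiff_Gt c σ t hG).differentiable (by simp)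
  have hGd : Differentiable ℝ G := hG.differentiable (by simp)
  -- derivative along the ray
  have h0 : HasDerivAt (fun r : ℝ => r • η) η 1 := by
    simpa using (hasDerivAt_id (1 : ℝ)).smul_const η
  have h1 : HasDerivAt (fun r : ℝ => Gt c σ t G (r • η)) (fderiv ℝ (Gt c σ t G) η η) 1 := by
    have := (hd ((1 : ℝ) • η)).hasFDerivAt.comp_hasDerivAt (1 : ℝ) h0
    rw [one_smul] at this
    exact this
  have h2 : HasDerivAt (fun r : ℝ => (((4 * π ^ 2 * ‖r • η‖ ^ 2 : ℝ)) : ℂ))
      ((2 * (4 * π ^ 2 * ‖η‖ ^ 2) : ℝ) : ℂ) 1 := by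
    have e : (fun r : ℝ => (4 * π ^ 2 * ‖r • η‖ ^ 2 : ℝ)) = fun r => 4 * π ^ 2 * ‖η‖ ^ 2 * r ^ 2 := by
      ext r
      rw [norm_smul, mul_pow, Real.norm_eq_abs, sq_abs]; ring
    have h3 : HasDerivAt (fun r : ℝ => (4 * π ^ 2 * ‖r • η‖ ^ 2 : ℝ))
        (2 * (4 * π ^ 2 * ‖η‖ ^ 2)) 1 := by
      rw [e]
      have := ((hasDerivAt_pow 2 (1 : ℝ)).const_mul (4 * π ^ 2 * ‖η‖ ^ 2))
      refine this.congr_deriv ?_
      norm_num
      ring
    exact h3.ofReal_comp
  have h4 : HasDerivAt (fun r : ℝ => ph c σ t (r • η)) (ph c σ t η *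
      (-(Complex.I * σ * ((2 * (4 * π ^ 2 * ‖η‖ ^ 2) : ℝ) : ℂ) * (1 - Real.exp (-t) : ℝ)))) 1 := by
    unfold ph
    have := (((h2.const_mul (Complex.I * σ)).mul_const ((1 - Real.exp (-t) : ℝ) : ℂ)).const_sub
      (c * t)).cexp
    simpa only [one_smul] using this
  have h5 : HasDerivAt (fun r : ℝ => G (Real.exp (-(t / 2)) • r • η))
      (fderiv ℝ G (Real.exp (-(t / 2)) • η) (Real.exp (-(t / 2)) • η)) 1 := by
    have h6 : HasDerivAt (fun r : ℝ => Real.exp (-(t / 2)) • r • η) (Real.exp (-(t / 2)) • η) 1 :=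
      h0.fun_const_smul _
    have := (hGd (Real.exp (-(t / 2)) • (1 : ℝ) • η)).hasFDerivAt.comp_hasDerivAt (1 : ℝ) h6
    rw [one_smul] at this
    exact this
  have h7 : HasDerivAt (fun r : ℝ => Gt c σ t G (r • η)) _ 1 := h4.mul h5
  have h8 := h1.unique h7
  rw [one_smul] at h8
  rw [Lst, h8, Gt, Lst, norm_smul, Real.norm_of_nonneg (Real.exp_pos _).le]
  have e4 : Real.exp (-(t / 2)) ^ 2 = Real.exp (-t) := by
    rw [← Real.exp_nat_mul]; congr 1; push_cast; ring
  rw [mul_pow, e4]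
  push_cast
  ring

lemma continuous_Lst (c : ℂ) (σ : ℝ) {G : E d → ℂ} (hG : ContDiff ℝ ∞ G) :
    Continuous (Lst c σ G) := by
  unfold Lst
  have h1 : Continuous fun η : E d => fderiv ℝ G η η :=
    (hG.continuous_fderiv (by simp)).clm_apply continuous_id
  have h2 := hG.continuous
  fun_prop

lemma bounded_Lst (c : ℂ) (σ : ℝ) {G : E d → ℂ} (hG : ContDiff ℝ ∞ G)
    (hs : HasCompactSupport G) : ∃ C, ∀ η, ‖Lst c σ G η‖ ≤ C := by
  refine (continuous_Lst c σ hG).bounded_above_of_compact_support ?_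
  have h1 : HasCompactSupport fun η : E d => fderiv ℝ G η η := by
    refine HasCompactSupport.intro (K := tsupport G) hs fun η hη => ?_
    have : fderiv ℝ G η = 0 := by
      by_contra h
      exact hη (support_fderiv_subset ℝ h)
    rw [this]; rfl
  have h2 : HasCompactSupport fun η : E d =>
      (c - Complex.I * σ * (4 * π ^ 2 * ‖η‖ ^ 2 : ℝ)) * G η := hs.mul_left
  have h3 : HasCompactSupport fun η : E d => (1 / 2 : ℂ) * fderiv ℝ G η η := h1.mul_left
  exact h2.sub h3

/-- derivative of the tested flow -/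
theorem hasDerivAt_test {φ : E d → ℂ} (h0 : Integrable φ) (c : ℂ) (σ t : ℝ) {G : E d → ℂ}
    (hG : ContDiff ℝ ∞ G) (hs : HasCompactSupport G) :
    HasDerivAt (fun t => ∫ η, φ η * Gt c σ t G η)
      (∫ η, φ η * (ph c σ t η * Lst c σ G (Real.exp (-(t / 2)) • η))) t := by
  obtain ⟨C, hC⟩ := bounded_Lst c σ hG hs
  obtain ⟨C0, hC0⟩ := hG.continuous.bounded_above_of_compact_support hs
  have hC' : 0 ≤ C := (norm_nonneg _).trans (hC 0)
  have key := hasDerivAt_integral_of_dominated_loc_of_deriv_le (μ := (volume : Measure (E d)))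
    (F := fun t η => φ η * Gt c σ t G η)
    (F' := fun t η => φ η * (ph c σ t η * Lst c σ G (Real.exp (-(t / 2)) • η)))
    (x₀ := t) (s := Metric.ball t 1)
    (bound := fun η => (Real.exp (|c.re| * (|t| + 1)) * C) * ‖φ η‖)
    (Metric.ball_mem_nhds t one_pos)
    (Eventually.of_forall fun r => h0.1.mul (contDiff_Gt c σ r hG).continuous.aestronglyMeasurable)
    ?_ ?_ ?_ ?_ ?_
  · exact key.2
  · have hb : ∀ η, ‖Gt c σ t G η‖ ≤ Real.exp (c.re * t) * C0 := fun η => by
      rw [Gt, norm_mul, norm_ph]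
      gcongr
      exact hC0 _
    exact h0.mul_bdd (contDiff_Gt c σ t hG).continuous.aestronglyMeasurable
      (Eventually.of_forall hb)
  · refine h0.1.mul (Continuous.aestronglyMeasurable ?_)
    exact (continuous_ph c σ t).mul ((continuous_Lst c σ hG).comp (by fun_prop))
  · refine Eventually.of_forall fun η r hr => ?_
    rw [norm_mul, norm_mul, norm_ph, mul_comm]
    have h1 : |r| ≤ |t| + 1 := by
      have : |r - t| < 1 := by simpa [Real.dist_eq] using hr
      calc |r| = |(r - t) + t| := by ring_nf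
        _ ≤ |r - t| + |t| := abs_add_le _ _
        _ ≤ |t| + 1 := by linarith
    have h2 : c.re * r ≤ |c.re| * (|t| + 1) := by
      calc c.re * r ≤ |c.re * r| := le_abs_self _
        _ = |c.re| * |r| := abs_mul _ _
        _ ≤ _ := by gcongr
    refine mul_le_mul_of_nonneg_right ?_ (norm_nonneg _)
    exact mul_le_mul (Real.exp_le_exp.2 h2) (hC _) (norm_nonneg _) (Real.exp_pos _).le
  · exact h0.norm.const_mul _
  · refine Eventually.of_forall fun η r _ => ?_
    exact (hasDerivAt_Gt c σ r (hG.differentiable (by simp)) η).const_mul _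

/-- testing against a bounded continuous function, as a continuous linear functional -/
noncomputable def testL (hκ : 0 ≤ κ) (G : E d → ℂ) (hG : Continuous G) (C : ℝ)
    (hC : ∀ ξ, ‖G ξ‖ ≤ C) : XK d s κ →L[ℂ] ℂ :=
  LinearMap.mkContinuous
    { toFun := fun f => ∫ ξ, f ξ * G ξ
      map_add' := fun f g => by
        rw [← integral_add ((XK.integrable hκ f).mul_bdd hG.aestronglyMeasurable
          (Eventually.of_forall hC)) ((XK.integrable hκ g).mul_bdd hG.aestronglyMeasurable
          (Eventually.of_forall hC))]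
        apply integral_congr_ae
        filter_upwards [XK.ae_add hκ f g] with ξ hξ
        rw [hξ]; ring
      map_smul' := fun c f => by
        rw [RingHom.id_apply, smul_eq_mul, ← integral_const_mul]
        apply integral_congr_ae
        filter_upwards [XK.ae_smul hκ c f] with ξ hξ
        rw [hξ]; ring }
    C fun f => by
      refine (norm_integral_le_integral_norm _).trans ?_
      have hC0 : 0 ≤ C := (norm_nonneg _).trans (hC 0)
      have h1 : ∫ ξ, ‖f ξ * G ξ‖ ≤ ∫ ξ, C * ‖f ξ‖ := by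
        refine integral_mono ((XK.integrable hκ f).mul_bdd hG.aestronglyMeasurable
          (Eventually.of_forall hC)).norm ((XK.integrable hκ f).norm.const_mul C) fun ξ => ?_
        simp only
        rw [norm_mul, mul_comm]
        exact mul_le_mul_of_nonneg_right (hC ξ) (norm_nonneg _)
      refine h1.trans ?_
      rw [integral_const_mul]
      gcongr
      exact integral_norm_le hκ f

lemma testL_apply (hκ : 0 ≤ κ) (G : E d → ℂ) (hG : Continuous G) (C : ℝ)
    (hC : ∀ ξ, ‖G ξ‖ ≤ C) (f : XK d s κ) : testL hκ G hG C hC f = ∫ ξ, f ξ * G ξ := rfl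

/-- **Lemma GEN.** -/
theorem gen_duhamel (hκ : 0 < κ) (hs : 2 ≤ s) {c : ℂ} {σ : ℝ}
    {S0 : ℝ → XK d s κ →L[ℂ] XK d s κ}
    (hflow : ∀ t, 0 ≤ t → ∀ x, (S0 t x : E d → ℂ) =ᵐ[volume] flowD c σ t x)
    (hcont : ∀ x, ContinuousOn (fun t => S0 t x) (Set.Ici 0))
    {φ h : XK d s κ}
    (heq : ∀ y, ev h y = Complex.I * σ * lap (ev φ) y - (1 / 2) * eul (ev φ) y + c * ev φ y)
    {t : ℝ} (ht : 0 ≤ t) : S0 t φ = φ + ∫ τ in (0:ℝ)..t, S0 τ h := by
  have hφ := XK.integrable hκ.le φ
  have hh := XK.integrable hκ.le h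
  have hcI : ContinuousOn (fun τ => S0 τ h) (Set.uIcc 0 t) := by
    refine (hcont h).mono fun τ hτ => ?_
    rw [Set.uIcc_of_le ht] at hτ
    exact hτ.1
  have hint : IntervalIntegrable (fun τ => S0 τ h) volume 0 t := hcI.intervalIntegrable
  rw [← sub_eq_zero]
  set z := S0 t φ - (φ + ∫ τ in (0:ℝ)..t, S0 τ h) with hz
  have hz0 : (z : E d → ℂ) =ᵐ[volume] 0 := by
    refine ae_eq_zero_of_integral_contDiff_smul_eq_zero
      (XK.integrable hκ.le z).locallyIntegrable ?_
    intro g hg hgs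
    set G : E d → ℂ := fun x => (g x : ℂ) with hGdef
    have hGs : HasCompactSupport G := hgs.comp_left Complex.ofReal_zero
    have hG : ContDiff ℝ ∞ G := Complex.ofRealCLM.contDiff.comp hg
    obtain ⟨C, hC⟩ := hG.continuous.bounded_above_of_compact_support hGs
    have e0 : ∫ x, g x • z x = testL hκ.le G hG.continuous C hC z := by
      rw [testL_apply]
      apply integral_congr_ae
      filter_upwards with x
      rw [Complex.real_smul, mul_comm]
    rw [e0, hz, map_sub, map_add, ← ContinuousLinearMap.intervalIntegral_comp_comm _ hint]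
    -- tested flow
    have e1 : ∀ τ, 0 ≤ τ → ∀ x : XK d s κ, testL hκ.le G hG.continuous C hC (S0 τ x) =
        ∫ η, x η * Gt c σ τ G η := by
      intro τ hτ x
      rw [testL_apply]
      have : ∫ ξ, (S0 τ x) ξ * G ξ = ∫ ξ, flowD c σ τ x ξ * G ξ := by
        apply integral_congr_ae
        filter_upwards [hflow τ hτ x] with ξ hξ
        rw [hξ]
      rw [this, integral_flowD]
      rfl
    have e2 : ∀ τ, HasDerivAt (fun t => ∫ η, φ η * Gt c σ t G η)
        (∫ η, h η * Gt c σ τ G η) τ := by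
      intro τ
      have := hasDerivAt_test hφ c σ τ hG hGs
      have e3 : ∫ η, h η * Gt c σ τ G η =
          ∫ η, φ η * (ph c σ τ η * Lst c σ G (Real.exp (-(τ / 2)) • η)) := by
        rw [weak_gen hφ (XK.moment hκ φ hs) hh heq (contDiff_Gt c σ τ hG)
          (hasCompactSupport_Gt c σ τ hGs)]
        simp only [Lst_Gt c σ τ hG]
      rw [e3]
      exact this
    have e4 : Set.EqOn (fun τ => testL hκ.le G hG.continuous C hC (S0 τ h))
        (fun τ => ∫ η, h η * Gt c σ τ G η) (Set.uIcc 0 t) := by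
      intro τ hτ
      rw [Set.uIcc_of_le ht] at hτ
      exact e1 τ hτ.1 h
    have e5 : IntervalIntegrable (fun τ => ∫ η, h η * Gt c σ τ G η) volume 0 t := by
      have : ContinuousOn (fun τ => testL hκ.le G hG.continuous C hC (S0 τ h)) (Set.uIcc 0 t) :=
        (ContinuousLinearMap.continuous _).comp_continuousOn hcI
      exact (this.congr fun τ hτ => (e4 hτ).symm).intervalIntegrable
    have e6 : ∫ τ in (0:ℝ)..t, testL hκ.le G hG.continuous C hC (S0 τ h) =
        (∫ η, φ η * Gt c σ t G η) - ∫ η, φ η * Gt c σ 0 G η := by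
      rw [intervalIntegral.integral_congr e4]
      exact intervalIntegral.integral_eq_sub_of_hasDerivAt (fun τ _ => e2 τ) e5
    have e7 : (∫ η, φ η * Gt c σ 0 G η) = testL hκ.le G hG.continuous C hC φ := by
      rw [testL_apply]
      apply integral_congr_ae
      filter_upwards with η
      simp [Gt, ph]
    rw [e6, e7, e1 t ht φ]
    ring
  have hz1 : z = 0 := by
    apply XK.ext_ae
    filter_upwards [hz0, (ac_nuK hκ.le).ae_le (Lp.coeFn_zero ℂ 1 (nuK d s κ))] with ξ h1 h2
    rw [h1, h2]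
  exact hz1

end Vale.Agent.P139.H25
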