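import Vale.Agent.P139.H25.Gen2

/-!
# P139 : free flow and potential on pairs; pointwise right derivative of the free flow
-/

open MeasureTheory Real FourierTransform Filter Topology Set
open scoped ComplexConjugate ContDiff ENNReal InnerProductSpace

namespace Vale.Agent.P139.H25

open Vale.Agent.P139.BU

variable {d s : ℕ} {κ : ℝ}

/-! ### Pointwise derivative of the flow at time zero -/

/-- the character -/
noncomputable def chf (y ξ : E d) : ℂ := Complex.exp (((2 * π * ⟪ξ, y⟫_ℝ : ℝ) : ℂ) * Complex.I)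

lemma norm_chf (y ξ : E d) : ‖chf y ξ‖ = 1 := Complex.norm_exp_ofReal_mul_I _

lemma continuous_chf (y : E d) : Continuous (chf y) := by unfold chf; fun_prop

lemma fi_eq_chf (φ : E d → ℂ) (y : E d) : 𝓕⁻ φ y = ∫ ξ, φ ξ * chf y ξ := by
  rw [fourierInv_eq']
  apply integral_congr_ae
  filter_upwards with ξ
  rw [smul_eq_mul, mul_comm]
  rfl

lemma contDiff_chf (y : E d) : ContDiff ℝ ∞ (chf y) := by
  have h1 : ContDiff ℝ ∞ (fun ξ : E d => (2 * π * ⟪ξ, y⟫_ℝ : ℝ)) :=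
    contDiff_const.mul (contDiff_id.inner ℝ contDiff_const)
  exact ((Complex.ofRealCLM.contDiff.comp h1).mul contDiff_const).cexp

lemma fderiv_chf (y ξ : E d) :
    fderiv ℝ (chf y) ξ ξ = (2 * π * Complex.I * (⟪ξ, y⟫_ℝ : ℂ)) * chf y ξ := by
  have hd : Differentiable ℝ (chf (d := d) y) := (contDiff_chf y).differentiable (by simp)
  have h0 : HasDerivAt (fun r : ℝ => r • ξ) ξ 1 := by
    simpa using (hasDerivAt_id (1 : ℝ)).smul_const ξ
  have h1 : HasDerivAt (fun r : ℝ => chf y (r • ξ)) (fderiv ℝ (chf y) ξ ξ) 1 := by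
    have := (hd ((1 : ℝ) • ξ)).hasFDerivAt.comp_hasDerivAt (1 : ℝ) h0
    rw [one_smul] at this
    exact this
  have h2 : HasDerivAt (fun r : ℝ => chf y (r • ξ))
      (chf y ξ * (((2 * π * ⟪ξ, y⟫_ℝ : ℝ) : ℂ) * Complex.I)) 1 := by
    unfold chf
    have h3 : HasDerivAt (fun r : ℝ => (2 * π * ⟪r • ξ, y⟫_ℝ : ℝ)) (2 * π * ⟪ξ, y⟫_ℝ) 1 := by
      simp only [real_inner_smul_left]
      simpa using ((hasDerivAt_id (1 : ℝ)).mul_const (⟪ξ, y⟫_ℝ)).const_mul (2 * π)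
    have := ((h3.ofReal_comp).mul_const Complex.I).cexp
    simpa only [one_smul] using this
  rw [h1.unique h2]
  push_cast
  ring

/-- right derivative (in fact derivative) at time zero of the evaluated flow -/
theorem hasDerivAt_flowD_ev {φ : E d → ℂ} (h0 : Integrable φ)
    (h2 : Integrable fun ξ => ‖ξ‖ ^ 2 * ‖φ ξ‖) (c : ℂ) (σ : ℝ) (y : E d) :
    HasDerivAt (fun t => 𝓕⁻ (flowD c σ t φ) y)
      (Complex.I * σ * lap (𝓕⁻ φ) y - (1 / 2) * eul (𝓕⁻ φ) y + c * 𝓕⁻ φ y) 0 := by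
  have h1 := moment_one h0 h2
  have hG := contDiff_chf y
  have e0 : ∀ t, 𝓕⁻ (flowD c σ t φ) y = ∫ η, φ η * Gt c σ t (chf y) η := fun t => by
    rw [fi_eq_chf, integral_flowD]; rfl
  simp only [e0]
  have key := hasDerivAt_integral_of_dominated_loc_of_deriv_le (μ := (volume : Measure (E d)))
    (F := fun t η => φ η * Gt c σ t (chf y) η)
    (F' := fun t η => φ η * (ph c σ t η * Lst c σ (chf y) (Real.exp (-(t / 2)) • η)))
    (x₀ := 0) (s := Metric.ball 0 1)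
    (bound := fun η => Real.exp |c.re| * (‖c‖ * ‖φ η‖ + (|σ| * (4 * π ^ 2) * Real.exp 1) *
      (‖η‖ ^ 2 * ‖φ η‖) + (π * Real.exp 1 * ‖y‖) * (‖η‖ * ‖φ η‖)))
    (Metric.ball_mem_nhds 0 one_pos)
    (Eventually.of_forall fun r => h0.1.mul (contDiff_Gt c σ r hG).continuous.aestronglyMeasurable)
    ?_ ?_ ?_ ?_ ?_
  · refine key.2.congr_deriv ?_
    have e1 : ∀ η : E d, φ η * (ph c σ 0 η * Lst c σ (chf y) (Real.exp (-(0 / 2)) • η)) =
        c * (φ η * chf y η) + Complex.I * σ * ((-(4 * π ^ 2 * ‖η‖ ^ 2 : ℝ) : ℂ) * φ η * chf y η)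
        - (1 / 2) * ((2 * π * Complex.I * (⟪η, y⟫_ℝ : ℂ)) * φ η * chf y η) := by
      intro η
      have e2 : ph c σ 0 η = 1 := by simp [ph]
      have e3 : Real.exp (-(0 / 2)) • η = η := by simp
      rw [e2, e3, Lst, fderiv_chf]
      push_cast
      ring
    have b : ∀ᵐ η : E d, ‖chf y η‖ ≤ 1 := Eventually.of_forall fun η => (norm_chf y η).le
    have i1 : Integrable fun η => φ η * chf y η :=
      h0.mul_bdd (continuous_chf y).aestronglyMeasurable b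
    have i2 : Integrable fun η : E d => (-(4 * π ^ 2 * ‖η‖ ^ 2 : ℝ) : ℂ) * φ η * chf y η :=
      (integrable_sq h0.1 h2).mul_bdd (continuous_chf y).aestronglyMeasurable b
    have i3' : Integrable fun η : E d => (2 * π * Complex.I * (⟪η, y⟫_ℝ : ℂ)) * φ η := by
      refine integrable_lin h0.1 h1 (by fun_prop) (C := 2 * π * ‖y‖) fun ξ => ?_
      rw [norm_mul, norm_mul, norm_mul, Complex.norm_I, mul_one, Complex.norm_two,
        Complex.norm_real, Complex.norm_real, Real.norm_of_nonneg pi_pos.le]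
      calc 2 * π * ‖⟪ξ, y⟫_ℝ‖ ≤ 2 * π * (‖ξ‖ * ‖y‖) := by
            gcongr; exact norm_inner_le_norm ξ y
        _ = 2 * π * ‖y‖ * ‖ξ‖ := by ring
    have i3 : Integrable fun η : E d => (2 * π * Complex.I * (⟪η, y⟫_ℝ : ℂ)) * φ η * chf y η :=
      i3'.mul_bdd (continuous_chf y).aestronglyMeasurable b
    simp only [e1]
    rw [integral_sub, integral_add, integral_const_mul, integral_const_mul,
      integral_const_mul, ← fi_eq_chf, ← fi_eq_chf, ← fi_eq_chf, lap_fi h0 h2, eul_fi h0 h1]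
    · ring
    · exact i1.const_mul _
    · exact i2.const_mul _
    · exact (i1.const_mul _).add (i2.const_mul _)
    · exact i3.const_mul _
  · have hb : ∀ η, ‖Gt c σ 0 (chf y) η‖ ≤ 1 := fun η => by
      rw [Gt, norm_mul, norm_ph, norm_chf]; simp
    exact h0.mul_bdd (contDiff_Gt c σ 0 hG).continuous.aestronglyMeasurable
      (Eventually.of_forall hb)
  · refine h0.1.mul (Continuous.aestronglyMeasurable ?_)
    exact (continuous_ph c σ 0).mul ((continuous_Lst c σ hG).comp (by fun_prop))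
  · refine Eventually.of_forall fun η r hr => ?_
    have hr1 : |r| < 1 := by simpa [Real.dist_eq] using hr
    rw [norm_mul, norm_mul, norm_ph, mul_comm, mul_assoc]
    have h3 : Real.exp (c.re * r) ≤ Real.exp |c.re| := by
      apply Real.exp_le_exp.2
      calc c.re * r ≤ |c.re * r| := le_abs_self _
        _ = |c.re| * |r| := abs_mul _ _
        _ ≤ |c.re| * 1 := by gcongr
        _ = |c.re| := mul_one _
    set ζ := Real.exp (-(r / 2)) • η with hζ
    have hζn : ‖ζ‖ = Real.exp (-(r / 2)) * ‖η‖ := by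
      rw [hζ, norm_smul, Real.norm_of_nonneg (Real.exp_pos _).le]
    have hr2 := abs_lt.1 hr1
    have hζ1 : ‖ζ‖ ≤ Real.exp 1 * ‖η‖ := by
      rw [hζn]
      gcongr
      linarith
    have hζ2 : ‖ζ‖ ^ 2 ≤ Real.exp 1 * ‖η‖ ^ 2 := by
      rw [hζn, mul_pow, ← Real.exp_nat_mul]
      gcongr
      push_cast
      linarith
    have h4 : ‖Lst c σ (chf y) ζ‖ ≤ ‖c‖ + |σ| * (4 * π ^ 2) * Real.exp 1 * ‖η‖ ^ 2 +
        π * Real.exp 1 * ‖y‖ * ‖η‖ := by
      rw [Lst, fderiv_chf]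
      have e5 : (c - Complex.I * σ * (4 * π ^ 2 * ‖ζ‖ ^ 2 : ℝ)) * chf y ζ -
          1 / 2 * ((2 * π * Complex.I * (⟪ζ, y⟫_ℝ : ℂ)) * chf y ζ) =
          (c - Complex.I * ((σ * (4 * π ^ 2 * ‖ζ‖ ^ 2) : ℝ) : ℂ) -
            Complex.I * ((π * ⟪ζ, y⟫_ℝ : ℝ) : ℂ)) * chf y ζ := by
        push_cast; ring
      rw [e5, norm_mul, norm_chf, mul_one]
      refine (norm_sub_le _ _).trans ?_
      refine (add_le_add (norm_sub_le _ _) le_rfl).trans ?_
      have e6 : ‖(σ * (4 * π ^ 2 * ‖ζ‖ ^ 2) : ℝ)‖ = |σ| * (4 * π ^ 2 * ‖ζ‖ ^ 2) := by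
        rw [Real.norm_eq_abs, abs_mul, abs_of_nonneg (by positivity : 0 ≤ 4 * π ^ 2 * ‖ζ‖ ^ 2)]
      have e7 : ‖(π * ⟪ζ, y⟫_ℝ : ℝ)‖ = π * ‖⟪ζ, y⟫_ℝ‖ := by
        rw [norm_mul, Real.norm_of_nonneg pi_pos.le]
      rw [norm_mul, norm_mul, Complex.norm_I, one_mul, one_mul, Complex.norm_real,
        Complex.norm_real, e6, e7]
      have h5 : ‖⟪ζ, y⟫_ℝ‖ ≤ ‖ζ‖ * ‖y‖ := norm_inner_le_norm ζ y
      have h6 : |σ| * (4 * π ^ 2 * ‖ζ‖ ^ 2) ≤ |σ| * (4 * π ^ 2) * Real.exp 1 * ‖η‖ ^ 2 := by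
        calc |σ| * (4 * π ^ 2 * ‖ζ‖ ^ 2) ≤ |σ| * (4 * π ^ 2 * (Real.exp 1 * ‖η‖ ^ 2)) := by
              gcongr
          _ = _ := by ring
      have h7 : π * ‖⟪ζ, y⟫_ℝ‖ ≤ π * Real.exp 1 * ‖y‖ * ‖η‖ := by
        calc π * ‖⟪ζ, y⟫_ℝ‖ ≤ π * ((Real.exp 1 * ‖η‖) * ‖y‖) := by
              gcongr
              exact h5.trans (by gcongr)
          _ = _ := by ring
      linarith
    calc Real.exp (c.re * r) * (‖Lst c σ (chf y) ζ‖ * ‖φ η‖)
        ≤ Real.exp |c.re| * ((‖c‖ + |σ| * (4 * π ^ 2) * Real.exp 1 * ‖η‖ ^ 2 +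
          π * Real.exp 1 * ‖y‖ * ‖η‖) * ‖φ η‖) := by gcongr
      _ = _ := by ring
  · exact (((h0.norm.const_mul _).add (h2.const_mul _)).add (h1.const_mul _)).const_mul _
  · refine Eventually.of_forall fun η r _ => ?_
    exact (hasDerivAt_Gt c σ r (hG.differentiable (by simp)) η).const_mul _

end Vale.Agent.P139.H25
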